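import Vale.Agent.P284.H213.PT.Comp

/-!
# P284 (helper213), potentials: functions of a submersion
-/

open scoped Manifold ContDiff Topology InnerProductSpace ComplexConjugate ENNReal Matrix
open Filter Set MeasureTheory Metric

noncomputable section

set_option linter.unusedSectionVars false

namespace Vale.Agent.P284.H213.PT

open Vale.Agent.P272.K Vale.Agent.P284.H894 Vale.Agent.P284.H894.G Vale.Agent.P284.H894.V
  Vale.Agent.P284.H894.W Vale.Agent.P284.H366 Vale.Agent.P284.H366.PT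

section
variable {n : ℕ} {H : ℕ → Type} [∀ k, NormedAddCommGroup (H k)] [∀ k, InnerProductSpace ℂ (H k)]
  {U : Ultrafilter ℕ}

/-- an approximation at a point is an approximation at the nearby points -/
theorem appr_near {z₀ : Cm n} {v φ : ∀ k, Cm n → H k} (h : Appr U z₀ v φ) :
    ∀ᶠ z in 𝓝 z₀, Appr U z v φ := by
  obtain ⟨ρ, C, h⟩ := h
  filter_upwards [isOpen_ball.mem_nhds (mem_ball_self h.pos)] with z hz
  obtain ⟨δ, hδ, hb⟩ := Metric.isOpen_iff.1 isOpen_ball z hz
  refine ⟨δ, C, hδ, h.nn, fun k y hy => h.bd k y (hb hy), fun k y hy y' hy' =>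
    h.lip k y (hb hy) y' (hb hy'), fun k => (h.cont k).mono hb, fun k => (h.int k).mono_set hb, ?_⟩
  refine squeeze_zero (fun k => integral_nonneg fun z => sq_nonneg _) (fun k => ?_) h.lim
  exact setIntegral_mono_set (h.int k) (Eventually.of_forall fun z => sq_nonneg _) hb.eventuallyLE

/-- the derivatives of inverse maps are bijective -/
theorem bij_of_inv {φ χ : Cm n → Cm n} {u : Cm n} (hχ : DifferentiableAt ℂ χ u)
    (hφ : DifferentiableAt ℂ φ (χ u)) (h : ∀ᶠ y in 𝓝 u, φ (χ y) = y) :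
    Function.Bijective (fderiv ℂ χ u) ∧ Function.Bijective (fderiv ℂ φ (χ u)) := by
  have h1 : HasFDerivAt (fun y => φ (χ y)) ((fderiv ℂ φ (χ u)).comp (fderiv ℂ χ u)) u :=
    hφ.hasFDerivAt.comp u hχ.hasFDerivAt
  have h2 : HasFDerivAt (fun y : Cm n => y) ((fderiv ℂ φ (χ u)).comp (fderiv ℂ χ u)) u :=
    h1.congr_of_eventuallyEq (h.mono fun y hy => hy.symm)
  have h3 := h2.unique (hasFDerivAt_id u)
  have h4 : ∀ v, fderiv ℂ φ (χ u) (fderiv ℂ χ u v) = v := fun v => by
    have := DFunLike.congr_fun h3 v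
    exact this
  have hi : Function.Injective (fderiv ℂ χ u) := fun a b hab => by
    rw [← h4 a, ← h4 b, hab]
  have hs : Function.Surjective (fderiv ℂ φ (χ u)) := fun v => ⟨_, h4 v⟩
  exact ⟨⟨hi, (LinearMap.injective_iff_surjective (f := (fderiv ℂ χ u : Cm n →ₗ[ℂ] Cm n))).1 hi⟩,
    (LinearMap.injective_iff_surjective (f := (fderiv ℂ φ (χ u) : Cm n →ₗ[ℂ] Cm n))).2 hs, hs⟩

/-- a function of `t` which has approximations at one point has approximations at the nearby points
of the fibre, with the same value -/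
theorem trans {q : ℕ} {t : Cm n → Cm q} {z₁ : Cm n} (ht : AnalyticAt ℂ t z₁)
    (hs : Function.Surjective (fderiv ℂ t z₁)) :
    ∃ N ∈ 𝓝 z₁, ∀ z ∈ N, ∀ z' ∈ N, t z = t z' → ∀ (b : ∀ k, Cm q → H k) (V : ∀ k, Cm n → H k),
      Appr U z V (fun k y => b k (t y)) →
      ∃ V' : ∀ k, Cm n → H k, (∀ k, V' k z' = V k z) ∧ Appr U z' V' (fun k y => b k (t y)) := by
  obtain ⟨s, φ, χ, -, hφ, hφ0, hχ, hχ0, h1, h2, h3⟩ := H625.exists_straight ht hs
  set L := fderiv ℂ t z₁ with hL
  -- the good neighbourhood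
  have hφc : Tendsto φ (𝓝 z₁) (𝓝 0) := by
    have := hφ.continuousAt.tendsto
    rwa [hφ0] at this
  have a1 : ∀ᶠ z in 𝓝 z₁, AnalyticAt ℂ φ z := hφ.eventually_analyticAt
  have a2 : ∀ᶠ z in 𝓝 z₁, ∀ᶠ y in 𝓝 z, χ (φ y) = y := h1.eventually_nhds
  have a3 : ∀ᶠ z in 𝓝 z₁, AnalyticAt ℂ χ (φ z) := hφc.eventually hχ.eventually_analyticAt
  have a4 : ∀ᶠ z in 𝓝 z₁, ∀ᶠ u in 𝓝 (φ z), φ (χ u) = u := hφc.eventually h2.eventually_nhds
  have a5 : ∀ᶠ z in 𝓝 z₁, ∀ᶠ u in 𝓝 (φ z), t (χ u) = t z₁ + L u :=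
    hφc.eventually h3.eventually_nhds
  refine ⟨_, (a1.and (a2.and (a3.and (a4.and a5)))), ?_⟩
  rintro z ⟨b1, b2, b3, b4, b5⟩ z' ⟨c1, c2, c3, c4, c5⟩ htt b V hV
  have hLz : L (φ z) = L (φ z') := by
    have e1 := b5.self_of_nhds
    have e2 := c5.self_of_nhds
    rw [b2.self_of_nhds] at e1
    rw [c2.self_of_nhds] at e2
    rw [e1, e2] at htt
    exact add_left_cancel htt
  -- in the straight coordinates
  have hzz : χ (φ z) = z := b2.self_of_nhds
  have hzz' : χ (φ z') = z' := c2.self_of_nhds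
  have i1 := bij_of_inv b3.differentiableAt (by rw [hzz]; exact b1.differentiableAt) b4
  have i2 := bij_of_inv c3.differentiableAt (by rw [hzz']; exact c1.differentiableAt) c4
  have j1 : Appr U (φ z) (fun k u => V k (χ u)) (fun k u => b k (t (χ u))) :=
    compStmt n H U χ (φ z) b3 i1.1 V (fun k y => b k (t y)) (by rw [hzz]; exact hV)
  have j2 : Appr U (φ z) (fun k u => V k (χ u)) (fun k u => b k (t z₁ + L u)) :=
    j1.congr (Eventually.of_forall fun _ _ => rfl) (b5.mono fun u hu k => by rw [hu])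
  -- translation
  have j3 : Appr U (φ z') (fun k u => V k (χ (u + (φ z - φ z'))))
      (fun k u => b k (t z₁ + L (u + (φ z - φ z')))) := by
    have hT : AnalyticAt ℂ (fun u : Cm n => u + (φ z - φ z')) (φ z') :=
      analyticAt_id.add analyticAt_const
    have hd : fderiv ℂ (fun u : Cm n => u + (φ z - φ z')) (φ z') = ContinuousLinearMap.id ℂ _ := by
      rw [fderiv_add_const]
      exact fderiv_id
    refine compStmt n H U (fun u => u + (φ z - φ z')) (φ z') hT ?_ (fun k u => V k (χ u))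
      (fun k u => b k (t z₁ + L u)) ?_
    · rw [hd]
      exact Function.bijective_id
    · have : φ z' + (φ z - φ z') = φ z := by abel
      rw [this]
      exact j2
  have j4 : Appr U (φ z') (fun k u => V k (χ (u + (φ z - φ z')))) (fun k u => b k (t z₁ + L u)) := by
    refine j3.congr (Eventually.of_forall fun _ _ => rfl) (Eventually.of_forall fun u k => ?_)
    rw [map_add, map_sub, hLz, sub_self, add_zero]
  -- back
  have j5 := compStmt n H U φ z' c1 (by have := i2.2; rwa [hzz'] at this) _ _ j4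
  refine ⟨fun k y => V k (χ (φ y + (φ z - φ z'))), fun k => ?_, ?_⟩
  · show V k (χ (φ z' + (φ z - φ z'))) = V k z
    have : φ z' + (φ z - φ z') = φ z := by abel
    rw [this, hzz]
  · refine j5.congr (Eventually.of_forall fun _ _ => rfl) ?_
    have k1 : ∀ᶠ y in 𝓝 z', t (χ (φ y)) = t z₁ + L (φ y) := c1.continuousAt.eventually c5
    filter_upwards [k1, c2] with y hy1 hy2 k
    rw [← hy1, hy2]

end

/-- **LocTransStmt** -/
theorem locTransStmt : LocTransStmt := by
  intro n q H _ _ U t z₁ ht hs b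
  obtain ⟨N, hN, h⟩ := trans (H := H) (U := U) ht hs
  refine ⟨N, hN, fun z hz z' hz' htt ⟨V, hV⟩ => ?_⟩
  obtain ⟨V', -, hV'⟩ := h z hz z' hz' htt b V hV
  exact ⟨V', hV'⟩

/-- **LocConstStmt** -/
theorem locConstStmt : LocConstStmt := by
  intro n q H _ _ U t z₁ ht hs V b hV
  obtain ⟨N, hN, h⟩ := trans (H := H) (U := U) ht hs
  filter_upwards [hN, appr_near hV] with z hz hVz htt
  obtain ⟨V', hV1, hV2⟩ := h z₁ (mem_of_mem_nhds hN) z hz htt.symm b V hV
  rw [hVz.mk_eq hV2]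
  congr 1
  funext k
  exact hV1 k

end Vale.Agent.P284.H213.PT
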