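import Vale.Agent.P284.H366.PT.Spec
import Vale.Agent.P284.H625.NS.Strt

/-!
# P284 (helper213), potentials: change of coordinates for approximations, functions of a submersion
-/

open scoped Manifold ContDiff Topology InnerProductSpace ComplexConjugate ENNReal Matrix
open Filter Set MeasureTheory Metric

noncomputable section

namespace Vale.Agent.P284.H213.PT

open Vale.Agent.P272.K Vale.Agent.P284.H894 Vale.Agent.P284.H894.G Vale.Agent.P284.H894.V
  Vale.Agent.P284.H894.W Vale.Agent.P284.H366 Vale.Agent.P284.H366.PT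

/-- a bijective complex linear map has nonzero real determinant -/
theorem det_ne_zero {n : ℕ} {A : Cm n →L[ℂ] Cm n} (h : Function.Bijective A) :
    (A.restrictScalars ℝ).det ≠ 0 := by
  have h1 : LinearMap.ker ((A.restrictScalars ℝ : Cm n →L[ℝ] Cm n) : Cm n →ₗ[ℝ] Cm n) = ⊥ := by
    rw [LinearMap.ker_eq_bot]
    exact h.1
  intro h0
  have h2 := LinearMap.bot_lt_ker_of_det_eq_zero
    (f := ((A.restrictScalars ℝ : Cm n →L[ℝ] Cm n) : Cm n →ₗ[ℝ] Cm n)) h0
  rw [h1] at h2
  exact lt_irrefl _ h2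

/-- **CompStmt** -/
theorem compStmt : CompStmt := by
  intro n H _ _ U T z₀ hT hbij v φ h
  obtain ⟨ρ, A, h⟩ := h
  have hT1 : ContDiffAt ℝ 1 T z₀ := hT.contDiffAt.restrict_scalars ℝ
  obtain ⟨K, t, ht, hK⟩ := hT1.exists_lipschitzOnWith
  set T' : Cm n → (Cm n →L[ℝ] Cm n) := fun z => (fderiv ℂ T z).restrictScalars ℝ with hT'
  have hder : ∀ᶠ z in 𝓝 z₀, HasFDerivAt T (T' z) z :=
    hT.eventually_analyticAt.mono fun z hz => hz.differentiableAt.hasFDerivAt.restrictScalars ℝ
  have hcT' : ContinuousAt T' z₀ := by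
    have h1 : ContinuousAt (fun z => fderiv ℂ T z) z₀ := hT.fderiv.continuousAt
    exact (ContinuousLinearMap.restrictScalarsL ℂ (Cm n) (Cm n) ℝ ℝ).continuous.continuousAt.comp h1
  have hcd : ContinuousAt (fun z => |(T' z).det|) z₀ :=
    (ContinuousLinearMap.continuous_det.continuousAt.comp hcT').abs
  have hpos : 0 < |(T' z₀).det| := abs_pos.2 (det_ne_zero hbij)
  set m : ℝ := |(T' z₀).det| / 2 with hm
  have hm0 : 0 < m := by positivity
  have hdet : ∀ᶠ z in 𝓝 z₀, m < |(T' z).det| :=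
    hcd.eventually (lt_mem_nhds (by show m < |(T' z₀).det|; linarith))
  -- injectivity
  set eA : Cm n ≃L[ℂ] Cm n := ContinuousLinearEquiv.ofBijective (fderiv ℂ T z₀)
    (LinearMap.ker_eq_bot.2 hbij.1) (LinearMap.range_eq_top.2 hbij.2) with heA
  have hstr : HasStrictFDerivAt T (eA : Cm n →L[ℂ] Cm n) z₀ := by
    have := hT.hasStrictFDerivAt
    rwa [heA, ContinuousLinearEquiv.coe_ofBijective]
  have e1 : ∀ᶠ y in 𝓝 z₀, y ∈ (hstr.toOpenPartialHomeomorph T).source :=
    (hstr.toOpenPartialHomeomorph T).open_source.mem_nhds hstr.mem_toOpenPartialHomeomorph_source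
  have e4 : ∀ᶠ y in 𝓝 z₀, T y ∈ ball (T z₀) ρ :=
    hT1.continuousAt.eventually (isOpen_ball.mem_nhds (mem_ball_self h.pos))
  obtain ⟨s, hs, hall⟩ := Metric.nhds_basis_closedBall.mem_iff.1
    (Filter.inter_mem (Filter.inter_mem (Filter.inter_mem (Filter.inter_mem e1 hder) hdet) e4) ht)
  have hsub : ball z₀ s ⊆ closedBall z₀ s := ball_subset_closedBall
  have hO : closedBall z₀ s ⊆ (hstr.toOpenPartialHomeomorph T).source :=
    fun y hy => (hall hy).1.1.1.1
  have hinj : InjOn T (ball z₀ s) := by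
    have := (hstr.toOpenPartialHomeomorph T).injOn
    rw [hstr.toOpenPartialHomeomorph_coe] at this
    exact this.mono (hsub.trans hO)
  have hd : ∀ y ∈ closedBall z₀ s, HasFDerivAt T (T' y) y := fun y hy => (hall hy).1.1.1.2
  have hdt : ∀ y ∈ closedBall z₀ s, m < |(T' y).det| := fun y hy => (hall hy).1.1.2
  have hTb : ∀ y ∈ closedBall z₀ s, T y ∈ ball (T z₀) ρ := fun y hy => (hall hy).1.2
  have hst : closedBall z₀ s ⊆ t := fun y hy => (hall hy).2
  have cT : ContinuousOn T (closedBall z₀ s) := fun y hy => (hd y hy).continuousAt.continuousWithinAt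
  have cv : ∀ k, ContinuousOn (fun z => v k (T z)) (closedBall z₀ s) := fun k =>
    (h.contv k).comp cT hTb
  have cφ : ∀ k, ContinuousOn (fun z => φ k (T z)) (closedBall z₀ s) := fun k =>
    (h.cont k).comp cT hTb
  have hi : ∀ k, IntegrableOn (fun z => ‖v k (T z) - φ k (T z)‖ ^ 2) (ball z₀ s) :=
    fun k => (((cv k).sub (cφ k)).norm.pow 2 |>.integrableOn_compact
      (isCompact_closedBall _ _)).mono_set hsub
  refine ⟨s, A + A * K, hs, add_nonneg h.nn (mul_nonneg h.nn K.coe_nonneg), fun k z hz => ?_,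
    fun k z hz z' hz' => ?_, fun k => (cφ k).mono hsub, hi, ?_⟩
  · exact (h.bd k _ (hTb z (hsub hz))).trans (le_add_of_nonneg_right
      (mul_nonneg h.nn K.coe_nonneg))
  · refine (h.lip k _ (hTb z (hsub hz)) _ (hTb z' (hsub hz'))).trans ?_
    have h3 := hK.dist_le_mul z (hst (hsub hz)) z' (hst (hsub hz'))
    rw [dist_eq_norm, dist_eq_norm] at h3
    have h4 := mul_le_mul_of_nonneg_left h3 h.nn
    have h5 : 0 ≤ A * ‖z - z'‖ := mul_nonneg h.nn (norm_nonneg _)
    nlinarith
  · refine squeeze_zero (fun k => integral_nonneg fun z => sq_nonneg _) (fun k => ?_)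
      (by simpa using h.lim.const_mul m⁻¹)
    have hdb : ∀ x ∈ ball z₀ s, HasFDerivWithinAt T (T' x) (ball z₀ s) x := fun x hx =>
      (hd x (hsub hx)).hasFDerivWithinAt
    have himg : T '' ball z₀ s ⊆ ball (T z₀) ρ := by
      rintro _ ⟨y, hy, rfl⟩
      exact hTb y (hsub hy)
    have c1 := integral_image_eq_integral_abs_det_fderiv_smul (μ := volume) measurableSet_ball
      hdb hinj (fun y => ‖v k y - φ k y‖ ^ 2)
    have c2 : IntegrableOn (fun x => |(T' x).det| • ‖v k (T x) - φ k (T x)‖ ^ 2) (ball z₀ s) :=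
      (integrableOn_image_iff_integrableOn_abs_det_fderiv_smul (μ := volume) measurableSet_ball
        hdb hinj (fun y => ‖v k y - φ k y‖ ^ 2)).1 ((h.int k).mono_set himg)
    calc ∫ z in ball z₀ s, ‖v k (T z) - φ k (T z)‖ ^ 2
        ≤ ∫ z in ball z₀ s, m⁻¹ * (|(T' z).det| • ‖v k (T z) - φ k (T z)‖ ^ 2) := by
          refine setIntegral_mono_on (hi k) (c2.const_mul _) measurableSet_ball fun z hz => ?_
          rw [smul_eq_mul, ← mul_assoc]
          have h6 : 1 ≤ m⁻¹ * |(T' z).det| := by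
            rw [inv_mul_eq_div, le_div_iff₀ hm0, one_mul]
            exact (hdt z (hsub hz)).le
          exact le_mul_of_one_le_left (sq_nonneg _) h6
      _ = m⁻¹ * ∫ y in T '' ball z₀ s, ‖v k y - φ k y‖ ^ 2 := by
          rw [integral_const_mul, c1]
      _ ≤ m⁻¹ * ∫ y in ball (T z₀) ρ, ‖v k y - φ k y‖ ^ 2 := by
          refine mul_le_mul_of_nonneg_left ?_ (inv_nonneg.2 hm0.le)
          exact setIntegral_mono_set (h.int k) (Eventually.of_forall fun z => sq_nonneg _)
            himg.eventuallyLE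

end Vale.Agent.P284.H213.PT
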